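import Mathlib
import Vale.Agent.Lib.P335.helper26.ThreeDefs
import Vale.Agent.Lib.P335.helper55.Efron

/-!
Abstract three-site eigenvector lemma (P335, job B9).

Three sites carry log-concave one-site weights; the occupation vector `b` lives on the
lattice simplex.  An eigenvector of the sum of the off-diagonal conditional expectations
with eigenvalue larger than one and with mean zero vanishes on the support.
-/

namespace Vale.Agent.Lib.P335.Bip

open Finset

namespace TS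

/-! ### Two sites: a monotone coupling of consecutive levels -/

/-- Total weight of the pairs x, n - x. -/
def zs (u v : ℕ → ℝ) (n : ℕ) : ℝ := ∑ x ∈ range (n + 1), u x * v (n - x)

/-- Weighted sum of g x + h (n - x) over the pairs x, n - x. -/
def ps (u v g h : ℕ → ℝ) (n : ℕ) : ℝ :=
  ∑ x ∈ range (n + 1), u x * v (n - x) * (g x + h (n - x))

/-- Lower sums of the weights at level `n`. -/
def lo (u v : ℕ → ℝ) (n x : ℕ) : ℝ := ∑ y ∈ range x, u y * v (n - y)

/-- Coupling mass of the move raising the first coordinate from x to x + 1 at the second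
coordinate n - x, multiplied by both totals. -/
def cA (u v : ℕ → ℝ) (n x : ℕ) : ℝ :=
  lo u v n (x + 1) * zs u v (n + 1) - lo u v (n + 1) (x + 1) * zs u v n

/-- Coupling mass of the move raising the second coordinate from n - x to n + 1 - x at the first
coordinate x, multiplied by both totals. -/
def cB (u v : ℕ → ℝ) (n x : ℕ) : ℝ :=
  lo u v (n + 1) (x + 1) * zs u v n - lo u v n x * zs u v (n + 1)

theorem lo_succ (u v : ℕ → ℝ) (n x : ℕ) :
    lo u v n (x + 1) = lo u v n x + u x * v (n - x) := by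
  unfold lo
  rw [sum_range_succ]

theorem lo_full (u v : ℕ → ℝ) (n : ℕ) : lo u v n (n + 1) = zs u v n := rfl

theorem cA_add_cB (u v : ℕ → ℝ) (n x : ℕ) :
    cA u v n x + cB u v n x = u x * v (n - x) * zs u v (n + 1) := by
  unfold cA cB
  rw [lo_succ u v n x]
  ring

theorem cA_add_cB_succ (u v : ℕ → ℝ) (n x : ℕ) :
    cA u v n x + cB u v n (x + 1) = u (x + 1) * v (n - x) * zs u v n := by
  unfold cA cB
  rw [lo_succ u v (n + 1) (x + 1), Nat.add_sub_add_right]
  ring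

theorem cB_zero (u v : ℕ → ℝ) (n : ℕ) : cB u v n 0 = u 0 * v (n + 1) * zs u v n := by
  unfold cB
  rw [lo_succ u v (n + 1) 0]
  simp [lo]

theorem cB_last (u v : ℕ → ℝ) (n : ℕ) : cB u v n (n + 1) = 0 := by
  unfold cB
  rw [lo_full, lo_full]
  ring

theorem ps_diff (u v g h : ℕ → ℝ) (n : ℕ) :
    ps u v g h (n + 1) * zs u v n - ps u v g h n * zs u v (n + 1)
      = ∑ x ∈ range (n + 1), cA u v n x * (g (x + 1) - g x)
        + ∑ x ∈ range (n + 1), cB u v n x * (h (n + 1 - x) - h (n - x)) := by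
  have h1 : ps u v g h (n + 1) * zs u v n
      = ∑ x ∈ range (n + 1), (cA u v n x + cB u v n (x + 1)) * (g (x + 1) + h (n - x))
        + cB u v n 0 * (g 0 + h (n + 1)) := by
    unfold ps
    rw [sum_mul, sum_range_succ']
    congr 1
    · apply sum_congr rfl
      intro x _
      rw [cA_add_cB_succ, Nat.add_sub_add_right]
      ring
    · rw [cB_zero, Nat.sub_zero]
      ring
  have h2 : ps u v g h n * zs u v (n + 1)
      = ∑ x ∈ range (n + 1), (cA u v n x + cB u v n x) * (g x + h (n - x)) := by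
    unfold ps
    rw [sum_mul]
    apply sum_congr rfl
    intro x _
    rw [cA_add_cB]
    ring
  have h3 : ∑ x ∈ range (n + 1), cB u v n (x + 1) * (g (x + 1) + h (n - x))
        + cB u v n 0 * (g 0 + h (n + 1))
      = ∑ x ∈ range (n + 1), cB u v n x * (g x + h (n + 1 - x)) := by
    have key := sum_range_succ' (fun x => cB u v n x * (g x + h (n + 1 - x))) (n + 1)
    rw [sum_range_succ, cB_last] at key
    simp only [Nat.add_sub_add_right, zero_mul, add_zero, Nat.sub_zero] at key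
    exact key.symm
  have h4 : ∑ x ∈ range (n + 1), (cA u v n x + cB u v n (x + 1)) * (g (x + 1) + h (n - x))
      = ∑ x ∈ range (n + 1), cA u v n x * (g (x + 1) + h (n - x))
        + ∑ x ∈ range (n + 1), cB u v n (x + 1) * (g (x + 1) + h (n - x)) := by
    rw [← sum_add_distrib]
    apply sum_congr rfl
    intro x _
    ring
  rw [h1, h2, h4, add_assoc, h3, ← sum_add_distrib, ← sum_add_distrib, ← sum_sub_distrib]
  apply sum_congr rfl
  intro x _
  ring

theorem pos_of_mul (a b : ℝ) (ha : 0 ≤ a) (hb : 0 ≤ b) (h : 0 < a * b) : 0 < a ∧ 0 < b := by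
  constructor
  · rcases ha.eq_or_lt with h0 | h0
    · rw [← h0, zero_mul] at h
      exact absurd h (lt_irrefl _)
    · exact h0
  · rcases hb.eq_or_lt with h0 | h0
    · rw [← h0, mul_zero] at h
      exact absurd h (lt_irrefl _)
    · exact h0

theorem filter_lt_range (N t : ℕ) (h : t ≤ N) :
    (range N).filter (fun y => y < t) = range t := by
  ext y
  simp only [mem_filter, mem_range]
  omega

theorem zs_nonneg (u v : ℕ → ℝ) (hu : ∀ t, 0 ≤ u t) (hv : ∀ t, 0 ≤ v t) (n : ℕ) :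
    0 ≤ zs u v n :=
  sum_nonneg (fun x _ => mul_nonneg (hu x) (hv _))

theorem zs_pos (u v : ℕ → ℝ) (hu : ∀ t, 0 ≤ u t) (hv : ∀ t, 0 ≤ v t) (n x y : ℕ)
    (hxy : x + y = n) (hx : 0 < u x) (hy : 0 < v y) : 0 < zs u v n := by
  unfold zs
  apply sum_pos' (fun x _ => mul_nonneg (hu x) (hv _))
  refine ⟨x, by rw [mem_range]; omega, ?_⟩
  have e : n - x = y := by omega
  rw [e]
  exact mul_pos hx hy

theorem cA_nonneg (u v : ℕ → ℝ) (hu : ∀ t, 0 ≤ u t) (hv : ∀ t, 0 ≤ v t)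
    (hv2 : ∀ s t, s ≤ t → v s * v (t + 1) ≤ v (s + 1) * v t) (n x : ℕ) (hx : x ≤ n) :
    0 ≤ cA u v n x := by
  have h := efron_lower u v hu hv hv2 n (x + 1)
  rw [filter_lt_range (n + 2) (x + 1) (by omega), filter_lt_range (n + 1) (x + 1) (by omega)] at h
  have e1 : zs u v (n + 1) = ∑ y ∈ range (n + 2), u y * v (n + 1 - y) := rfl
  have e2 : zs u v n = ∑ y ∈ range (n + 1), u y * v (n - y) := rfl
  have e3 : lo u v n (x + 1) = ∑ y ∈ range (x + 1), u y * v (n - y) := rfl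
  have e4 : lo u v (n + 1) (x + 1) = ∑ y ∈ range (x + 1), u y * v (n + 1 - y) := rfl
  unfold cA
  rw [e1, e2, e3, e4]
  linarith

theorem refl_sum (F : ℕ → ℕ → ℝ) (N x : ℕ) (hx : x ≤ N + 1) :
    ∑ y ∈ (range (N + 1)).filter (fun y => N + 1 - x ≤ y), F y (N - y)
      = ∑ y ∈ range x, F (N - y) y := by
  apply sum_nbij' (fun y => N - y) (fun y => N - y)
  · intro a ha
    rw [mem_filter, mem_range] at ha
    rw [mem_range]
    omega
  · intro a ha
    rw [mem_range] at ha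
    rw [mem_filter, mem_range]
    omega
  · intro a ha
    rw [mem_filter, mem_range] at ha
    show N - (N - a) = a
    omega
  · intro a ha
    rw [mem_range] at ha
    show N - (N - a) = a
    omega
  · intro a ha
    rw [mem_filter, mem_range] at ha
    have e : N - (N - a) = a := by omega
    rw [e]

theorem refl_full (F : ℕ → ℕ → ℝ) (N : ℕ) :
    ∑ y ∈ range (N + 1), F y (N - y) = ∑ y ∈ range (N + 1), F (N - y) y := by
  have h := refl_sum F N (N + 1) le_rfl
  rw [Nat.sub_self, filter_true_of_mem (fun y _ => Nat.zero_le y)] at h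
  exact h

theorem cB_nonneg (u v : ℕ → ℝ) (hu : ∀ t, 0 ≤ u t) (hv : ∀ t, 0 ≤ v t)
    (hu2 : ∀ s t, s ≤ t → u s * u (t + 1) ≤ u (s + 1) * u t) (n x : ℕ) (hx : x ≤ n + 1) :
    0 ≤ cB u v n x := by
  have h := efron v u hv hu hu2 n (n + 1 - x)
  have r1 := refl_sum (fun a b => v a * u b) n x hx
  have r2 := refl_sum (fun a b => v a * u b) (n + 1) (x + 1) (by omega)
  have r3 := refl_full (fun a b => v a * u b) n
  have r4 := refl_full (fun a b => v a * u b) (n + 1)
  rw [Nat.add_sub_add_right] at r2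
  beta_reduce at r1 r2 r3 r4
  have e1 : zs u v (n + 1) = ∑ y ∈ range (n + 1 + 1), v (n + 1 - y) * u y :=
    sum_congr rfl (fun y _ => mul_comm _ _)
  have e2 : zs u v n = ∑ y ∈ range (n + 1), v (n - y) * u y :=
    sum_congr rfl (fun y _ => mul_comm _ _)
  have e3 : lo u v n x = ∑ y ∈ range x, v (n - y) * u y :=
    sum_congr rfl (fun y _ => mul_comm _ _)
  have e4 : lo u v (n + 1) (x + 1) = ∑ y ∈ range (x + 1), v (n + 1 - y) * u y :=
    sum_congr rfl (fun y _ => mul_comm _ _)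
  unfold cB
  rw [e1, e2, e3, e4, ← r1, ← r2, ← r3, ← r4]
  linarith

/-- The two-site contraction: the conditional means at consecutive levels differ by at most the
largest admissible increment of `g` and `h`. -/
theorem two_site (u v g h : ℕ → ℝ) (hu : ∀ t, 0 ≤ u t) (hv : ∀ t, 0 ≤ v t)
    (hu2 : ∀ s t, s ≤ t → u s * u (t + 1) ≤ u (s + 1) * u t)
    (hv2 : ∀ s t, s ≤ t → v s * v (t + 1) ≤ v (s + 1) * v t) (n : ℕ) (D : ℝ)
    (hg : ∀ x, x ≤ n → 0 < u x → 0 < u (x + 1) → 0 < v (n - x) → |g (x + 1) - g x| ≤ D)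
    (hh : ∀ x, x ≤ n → 0 < u x → 0 < v (n - x) → 0 < v (n + 1 - x) →
      |h (n + 1 - x) - h (n - x)| ≤ D) :
    |ps u v g h (n + 1) * zs u v n - ps u v g h n * zs u v (n + 1)|
      ≤ D * (zs u v n * zs u v (n + 1)) := by
  have hZ : 0 ≤ zs u v n := zs_nonneg u v hu hv n
  have hZ' : 0 ≤ zs u v (n + 1) := zs_nonneg u v hu hv (n + 1)
  have hA : ∀ x, x ≤ n → 0 ≤ cA u v n x := cA_nonneg u v hu hv hv2 n
  have hB : ∀ x, x ≤ n + 1 → 0 ≤ cB u v n x := cB_nonneg u v hu hv hu2 n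
  rw [ps_diff]
  have e1 : ∀ x ∈ range (n + 1), |cA u v n x * (g (x + 1) - g x)| ≤ cA u v n x * D := by
    intro x hx
    have hxn : x ≤ n := by
      rw [mem_range] at hx
      omega
    have hAx := hA x hxn
    rw [abs_mul, abs_of_nonneg hAx]
    rcases hAx.eq_or_lt with h0 | hpos
    · rw [← h0, zero_mul, zero_mul]
    · apply mul_le_mul_of_nonneg_left _ hAx
      have s1 : 0 < u x * v (n - x) * zs u v (n + 1) := by
        rw [← cA_add_cB]
        linarith [hB x (by omega)]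
      have s2 : 0 < u (x + 1) * v (n - x) * zs u v n := by
        rw [← cA_add_cB_succ]
        linarith [hB (x + 1) (by omega)]
      have p1 := (pos_of_mul _ _ (mul_nonneg (hu _) (hv _)) hZ' s1).1
      have p2 := (pos_of_mul _ _ (mul_nonneg (hu _) (hv _)) hZ s2).1
      have q1 := pos_of_mul _ _ (hu _) (hv _) p1
      have q2 := pos_of_mul _ _ (hu _) (hv _) p2
      exact hg x hxn q1.1 q2.1 q1.2
  have e2 : ∀ x ∈ range (n + 1),
      |cB u v n x * (h (n + 1 - x) - h (n - x))| ≤ cB u v n x * D := by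
    intro x hx
    have hxn : x ≤ n := by
      rw [mem_range] at hx
      omega
    have hBx := hB x (by omega)
    rw [abs_mul, abs_of_nonneg hBx]
    rcases hBx.eq_or_lt with h0 | hpos
    · rw [← h0, zero_mul, zero_mul]
    · apply mul_le_mul_of_nonneg_left _ hBx
      have s1 : 0 < u x * v (n - x) * zs u v (n + 1) := by
        rw [← cA_add_cB]
        linarith [hA x hxn]
      have p1 := (pos_of_mul _ _ (mul_nonneg (hu _) (hv _)) hZ' s1).1
      have q1 := pos_of_mul _ _ (hu _) (hv _) p1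
      have s2 : 0 < u x * v (n + 1 - x) * zs u v n := by
        rcases Nat.eq_zero_or_pos x with hx0 | hx0
        · subst hx0
          rw [Nat.sub_zero, ← cB_zero]
          exact hpos
        · obtain ⟨x', rfl⟩ : ∃ x', x = x' + 1 := ⟨x - 1, by omega⟩
          rw [Nat.add_sub_add_right, ← cA_add_cB_succ]
          linarith [hA x' (by omega)]
      have p2 := (pos_of_mul _ _ (mul_nonneg (hu _) (hv _)) hZ s2).1
      have q2 := pos_of_mul _ _ (hu _) (hv _) p2
      exact hh x hxn q1.1 q1.2 q2.2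
  calc |∑ x ∈ range (n + 1), cA u v n x * (g (x + 1) - g x)
        + ∑ x ∈ range (n + 1), cB u v n x * (h (n + 1 - x) - h (n - x))|
      ≤ |∑ x ∈ range (n + 1), cA u v n x * (g (x + 1) - g x)|
        + |∑ x ∈ range (n + 1), cB u v n x * (h (n + 1 - x) - h (n - x))| := abs_add_le _ _
    _ ≤ ∑ x ∈ range (n + 1), |cA u v n x * (g (x + 1) - g x)|
        + ∑ x ∈ range (n + 1), |cB u v n x * (h (n + 1 - x) - h (n - x))| :=
        add_le_add (abs_sum_le_sum_abs _ _) (abs_sum_le_sum_abs _ _)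
    _ ≤ ∑ x ∈ range (n + 1), cA u v n x * D + ∑ x ∈ range (n + 1), cB u v n x * D :=
        add_le_add (sum_le_sum e1) (sum_le_sum e2)
    _ = D * (zs u v n * zs u v (n + 1)) := by
        rw [← sum_add_distrib]
        have e3 : ∀ x ∈ range (n + 1), cA u v n x * D + cB u v n x * D
            = D * zs u v (n + 1) * (u x * v (n - x)) := by
          intro x _
          rw [← add_mul, cA_add_cB]
          ring
        rw [sum_congr rfl e3, ← mul_sum]
        have e4 : ∑ x ∈ range (n + 1), u x * v (n - x) = zs u v n := rfl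
        rw [e4]
        ring

/-! ### Three sites -/

theorem mem_simplex (B : ℕ) (b : Fin 3 → ℕ) : b ∈ simplex B ↔ ∑ l, b l = B := by
  unfold simplex
  rw [mem_filter, Fintype.mem_piFinset]
  constructor
  · exact fun h => h.2
  · intro h
    refine ⟨fun i => ?_, h⟩
    rw [mem_range, Nat.lt_succ_iff, ← h]
    exact single_le_sum (f := b) (fun _ _ => Nat.zero_le _) (mem_univ i)

theorem fin3_ne (l : Fin 3) : l + 1 ≠ l ∧ l + 2 ≠ l ∧ l + 2 ≠ l + 1 := by
  revert l
  decide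

theorem fin3_univ (l : Fin 3) : (univ : Finset (Fin 3)) = {l, l + 1, l + 2} := by
  revert l
  decide

theorem fin3_erase (l : Fin 3) : (univ : Finset (Fin 3)).erase l = {l + 1, l + 2} := by
  revert l
  decide

theorem fin3_cases (l i : Fin 3) : i = l ∨ i = l + 1 ∨ i = l + 2 := by
  revert l i
  decide

theorem sum3 {M : Type*} [AddCommMonoid M] (l : Fin 3) (f : Fin 3 → M) :
    ∑ i, f i = f l + f (l + 1) + f (l + 2) := by
  obtain ⟨h1, h2, h3⟩ := fin3_ne l
  rw [fin3_univ l, sum_insert, sum_pair (Ne.symm h3), add_assoc]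
  simp only [mem_insert, mem_singleton, not_or]
  exact ⟨Ne.symm h1, Ne.symm h2⟩

theorem prod3 {M : Type*} [CommMonoid M] (l : Fin 3) (f : Fin 3 → M) :
    ∏ i, f i = f l * f (l + 1) * f (l + 2) := by
  obtain ⟨h1, h2, h3⟩ := fin3_ne l
  rw [fin3_univ l, prod_insert, prod_pair (Ne.symm h3), mul_assoc]
  simp only [mem_insert, mem_singleton, not_or]
  exact ⟨Ne.symm h1, Ne.symm h2⟩

/-- The occupation vector with value `s` at `l`, `x` at `l + 1` and `y` at `l + 2`. -/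
def mk3 (l : Fin 3) (s x y : ℕ) : Fin 3 → ℕ :=
  fun i => if i = l then s else if i = l + 1 then x else y

theorem mk3_0 (l : Fin 3) (s x y : ℕ) : mk3 l s x y l = s := by
  unfold mk3
  rw [if_pos rfl]

theorem mk3_1 (l : Fin 3) (s x y : ℕ) : mk3 l s x y (l + 1) = x := by
  unfold mk3
  rw [if_neg (fin3_ne l).1, if_pos rfl]

theorem mk3_2 (l : Fin 3) (s x y : ℕ) : mk3 l s x y (l + 2) = y := by
  unfold mk3
  rw [if_neg (fin3_ne l).2.1, if_neg (fin3_ne l).2.2]

theorem mk3_eta (l : Fin 3) (b : Fin 3 → ℕ) : mk3 l (b l) (b (l + 1)) (b (l + 2)) = b := by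
  funext i
  rcases fin3_cases l i with h | h | h
  · rw [h]
    exact mk3_0 _ _ _ _
  · rw [h]
    exact mk3_1 _ _ _ _
  · rw [h]
    exact mk3_2 _ _ _ _

theorem sum_simplex_fiber (B : ℕ) (l : Fin 3) (s : ℕ) (hs : s ≤ B) (F : (Fin 3 → ℕ) → ℝ) :
    ∑ b ∈ (simplex B).filter (fun b => b l = s), F b
      = ∑ x ∈ range (B - s + 1), F (mk3 l s x (B - s - x)) := by
  have key : ∀ b ∈ (simplex B).filter (fun b => b l = s),
      mk3 l s (b (l + 1)) (B - s - b (l + 1)) = b := by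
    intro b hb
    rw [mem_filter, mem_simplex, sum3 l] at hb
    obtain ⟨hsum, hl⟩ := hb
    have e : B - s - b (l + 1) = b (l + 2) := by omega
    rw [e, ← hl]
    exact mk3_eta l b
  apply sum_nbij' (fun b => b (l + 1)) (fun x => mk3 l s x (B - s - x))
  · intro b hb
    rw [mem_filter, mem_simplex, sum3 l] at hb
    rw [mem_range]
    omega
  · intro x hx
    rw [mem_range] at hx
    rw [mem_filter, mem_simplex, sum3 l, mk3_0, mk3_1, mk3_2]
    exact ⟨by omega, rfl⟩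
  · intro b hb
    exact key b hb
  · intro x _
    exact mk3_1 _ _ _ _
  · intro b hb
    show F b = F (mk3 l s (b (l + 1)) (B - s - b (l + 1)))
    rw [key b hb]

theorem marg_eq (w : Fin 3 → ℕ → ℝ) (B : ℕ) (l : Fin 3) (s : ℕ) (hs : s ≤ B) :
    ∑ b ∈ (simplex B).filter (fun b => b l = s), ∏ i, w i (b i)
      = w l s * zs (w (l + 1)) (w (l + 2)) (B - s) := by
  rw [sum_simplex_fiber B l s hs, zs, mul_sum]
  apply sum_congr rfl
  intro x _
  rw [prod3 l, mk3_0, mk3_1, mk3_2]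
  ring

theorem num_eq (w γ : Fin 3 → ℕ → ℝ) (B : ℕ) (l : Fin 3) (s : ℕ) (hs : s ≤ B) :
    ∑ b ∈ (simplex B).filter (fun b => b l = s),
        (∏ i, w i (b i)) * ∑ j ∈ (univ : Finset (Fin 3)).erase l, γ j (b j)
      = w l s * ps (w (l + 1)) (w (l + 2)) (γ (l + 1)) (γ (l + 2)) (B - s) := by
  rw [sum_simplex_fiber B l s hs, ps, mul_sum]
  apply sum_congr rfl
  intro x _
  rw [prod3 l, fin3_erase l, sum_pair (Ne.symm (fin3_ne l).2.2), mk3_0, mk3_1, mk3_2]
  ring

/-- The value `s` lies in the support of the coordinate `l`. -/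
def pos3 (w : Fin 3 → ℕ → ℝ) (B : ℕ) (l : Fin 3) (s : ℕ) : Prop :=
  ∃ b ∈ simplex B, b l = s ∧ 0 < ∏ i, w i (b i)

theorem pos3_mk (w : Fin 3 → ℕ → ℝ) (B : ℕ) (l : Fin 3) (a x y : ℕ) (h : a + x + y = B)
    (ha : 0 < w l a) (hx : 0 < w (l + 1) x) (hy : 0 < w (l + 2) y) :
    pos3 w B l a ∧ pos3 w B (l + 1) x ∧ pos3 w B (l + 2) y := by
  have hm : mk3 l a x y ∈ simplex B := by
    rw [mem_simplex, sum3 l, mk3_0, mk3_1, mk3_2]
    exact h
  have hp : 0 < ∏ i, w i (mk3 l a x y i) := by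
    rw [prod3 l, mk3_0, mk3_1, mk3_2]
    exact mul_pos (mul_pos ha hx) hy
  exact ⟨⟨_, hm, mk3_0 _ _ _ _, hp⟩, ⟨_, hm, mk3_1 _ _ _ _, hp⟩, ⟨_, hm, mk3_2 _ _ _ _, hp⟩⟩

theorem pos3_elim (w : Fin 3 → ℕ → ℝ) (hw0 : ∀ l t, 0 ≤ w l t) (B : ℕ) (l : Fin 3) (s : ℕ)
    (h : pos3 w B l s) :
    ∃ x y, s + x + y = B ∧ 0 < w l s ∧ 0 < w (l + 1) x ∧ 0 < w (l + 2) y := by
  obtain ⟨b, hb, hl, hp⟩ := h
  rw [mem_simplex, sum3 l] at hb
  rw [prod3 l] at hp
  obtain ⟨h12, h3⟩ := pos_of_mul _ _ (mul_nonneg (hw0 _ _) (hw0 _ _)) (hw0 _ _) hp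
  obtain ⟨h1, h2⟩ := pos_of_mul _ _ (hw0 _ _) (hw0 _ _) h12
  refine ⟨b (l + 1), b (l + 2), ?_, ?_, h2, h3⟩
  · rw [← hl]
    exact hb
  · rw [← hl]
    exact h1

theorem supp_step (f : ℕ → ℝ) (hf0 : ∀ t, 0 ≤ f t)
    (hf : ∀ s t, s ≤ t → f s * f (t + 1) ≤ f (s + 1) * f t) (a c : ℕ) (hac : a < c)
    (ha : 0 < f a) (hc : 0 < f c) : 0 < f (a + 1) ∧ 0 < f (c - 1) := by
  have h := hf a (c - 1) (by omega)
  have e : c - 1 + 1 = c := by omega
  rw [e] at h
  have hpos : 0 < f (a + 1) * f (c - 1) := lt_of_lt_of_le (mul_pos ha hc) h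
  exact pos_of_mul _ _ (hf0 _) (hf0 _) hpos

theorem pos3_step (w : Fin 3 → ℕ → ℝ) (hw0 : ∀ l t, 0 ≤ w l t)
    (hw : ∀ l s t, s ≤ t → w l s * w l (t + 1) ≤ w l (s + 1) * w l t)
    (B : ℕ) (l : Fin 3) (s s' : ℕ) (hss : s < s') (h : pos3 w B l s) (h' : pos3 w B l s') :
    pos3 w B l (s + 1) := by
  obtain ⟨x, y, e, a, bx, cy⟩ := pos3_elim w hw0 B l s h
  obtain ⟨x', y', e', a', bx', cy'⟩ := pos3_elim w hw0 B l s' h'
  have hl1 : 0 < w l (s + 1) := (supp_step (w l) (hw0 l) (hw l) s s' hss a a').1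
  rcases Nat.lt_or_ge x' x with hx | hx
  · have hx1 : 0 < w (l + 1) (x - 1) :=
      (supp_step (w (l + 1)) (hw0 _) (hw _) x' x hx bx' bx).2
    exact (pos3_mk w B l (s + 1) (x - 1) y (by omega) hl1 hx1 cy).1
  · have hy : y' < y := by omega
    have hy1 : 0 < w (l + 2) (y - 1) :=
      (supp_step (w (l + 2)) (hw0 _) (hw _) y' y hy cy' cy).2
    exact (pos3_mk w B l (s + 1) x (y - 1) (by omega) hl1 bx hy1).1

theorem const_of_step (w : Fin 3 → ℕ → ℝ) (hw0 : ∀ l t, 0 ≤ w l t)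
    (hw : ∀ l s t, s ≤ t → w l s * w l (t + 1) ≤ w l (s + 1) * w l t)
    (B : ℕ) (γ : Fin 3 → ℕ → ℝ)
    (hstep : ∀ l s, pos3 w B l s → pos3 w B l (s + 1) → γ l (s + 1) = γ l s) (l : Fin 3) :
    ∀ k s, pos3 w B l s → pos3 w B l (s + k) → γ l (s + k) = γ l s := by
  intro k
  induction k with
  | zero =>
    intro s _ _
    rfl
  | succ k ih =>
    intro s h0 h1
    have h2 : pos3 w B l (s + 1) := pos3_step w hw0 hw B l s (s + (k + 1)) (by omega) h0 h1
    have e : s + (k + 1) = s + 1 + k := by omega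
    rw [e] at h1 ⊢
    rw [ih (s + 1) h2 h1]
    exact hstep l s h0 h2

theorem const_on_supp (w : Fin 3 → ℕ → ℝ) (hw0 : ∀ l t, 0 ≤ w l t)
    (hw : ∀ l s t, s ≤ t → w l s * w l (t + 1) ≤ w l (s + 1) * w l t)
    (B : ℕ) (γ : Fin 3 → ℕ → ℝ)
    (hstep : ∀ l s, pos3 w B l s → pos3 w B l (s + 1) → γ l (s + 1) = γ l s) (l : Fin 3)
    (s s' : ℕ) (h : pos3 w B l s) (h' : pos3 w B l s') : γ l s = γ l s' := by
  rcases Nat.le_total s s' with hle | hle
  · obtain ⟨k, rfl⟩ := Nat.exists_eq_add_of_le hle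
    exact (const_of_step w hw0 hw B γ hstep l k s h h').symm
  · obtain ⟨k, rfl⟩ := Nat.exists_eq_add_of_le hle
    exact const_of_step w hw0 hw B γ hstep l k s' h' h

/-- The contraction step: every admissible increment is at most `D / lam`. -/
theorem core (w : Fin 3 → ℕ → ℝ) (hw0 : ∀ l t, 0 ≤ w l t)
    (hw : ∀ l s t, s ≤ t → w l s * w l (t + 1) ≤ w l (s + 1) * w l t)
    (B : ℕ) (γ : Fin 3 → ℕ → ℝ) (lam : ℝ) (hlam : 0 < lam)
    (hev : ∀ l s, lam * (∑ b ∈ (simplex B).filter (fun b => b l = s), ∏ i, w i (b i)) * γ l s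
        = ∑ b ∈ (simplex B).filter (fun b => b l = s),
            (∏ i, w i (b i)) * ∑ j ∈ (univ : Finset (Fin 3)).erase l, γ j (b j))
    (D : ℝ)
    (hD : ∀ l s, pos3 w B l s → pos3 w B l (s + 1) → |γ l (s + 1) - γ l s| ≤ D) :
    ∀ l s, pos3 w B l s → pos3 w B l (s + 1) → lam * |γ l (s + 1) - γ l s| ≤ D := by
  intro l s h0 h1
  obtain ⟨x0, y0, e0, a0, b0, c0⟩ := pos3_elim w hw0 B l s h0
  obtain ⟨x1, y1, e1, a1, b1, c1⟩ := pos3_elim w hw0 B l (s + 1) h1
  obtain ⟨n, hn⟩ : ∃ n, B = s + 1 + n := ⟨B - (s + 1), by omega⟩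
  have hB0 : B - s = n + 1 := by omega
  have hB1 : B - (s + 1) = n := by omega
  have E0 := hev l s
  rw [marg_eq w B l s (by omega), num_eq w γ B l s (by omega), hB0] at E0
  have E1 := hev l (s + 1)
  rw [marg_eq w B l (s + 1) (by omega), num_eq w γ B l (s + 1) (by omega), hB1] at E1
  have E0' : lam * zs (w (l + 1)) (w (l + 2)) (n + 1) * γ l s
      = ps (w (l + 1)) (w (l + 2)) (γ (l + 1)) (γ (l + 2)) (n + 1) := by
    apply mul_left_cancel₀ (ne_of_gt a0)
    linarith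
  have E1' : lam * zs (w (l + 1)) (w (l + 2)) n * γ l (s + 1)
      = ps (w (l + 1)) (w (l + 2)) (γ (l + 1)) (γ (l + 2)) n := by
    apply mul_left_cancel₀ (ne_of_gt a1)
    linarith
  have Z0 : 0 < zs (w (l + 1)) (w (l + 2)) (n + 1) :=
    zs_pos _ _ (hw0 _) (hw0 _) (n + 1) x0 y0 (by omega) b0 c0
  have Z1 : 0 < zs (w (l + 1)) (w (l + 2)) n :=
    zs_pos _ _ (hw0 _) (hw0 _) n x1 y1 (by omega) b1 c1
  have key := two_site (w (l + 1)) (w (l + 2)) (γ (l + 1)) (γ (l + 2)) (hw0 _) (hw0 _)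
    (hw _) (hw _) n D ?_ ?_
  · rw [← E0', ← E1'] at key
    have e : lam * zs (w (l + 1)) (w (l + 2)) (n + 1) * γ l s * zs (w (l + 1)) (w (l + 2)) n
        - lam * zs (w (l + 1)) (w (l + 2)) n * γ l (s + 1) * zs (w (l + 1)) (w (l + 2)) (n + 1)
        = -(lam * (zs (w (l + 1)) (w (l + 2)) n * zs (w (l + 1)) (w (l + 2)) (n + 1)))
          * (γ l (s + 1) - γ l s) := by
      ring
    have hpos : 0 < zs (w (l + 1)) (w (l + 2)) n * zs (w (l + 1)) (w (l + 2)) (n + 1) :=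
      mul_pos Z1 Z0
    rw [e, abs_mul, abs_neg, abs_of_pos (mul_pos hlam hpos)] at key
    by_contra hcon
    rw [not_le] at hcon
    have := mul_lt_mul_of_pos_right hcon hpos
    linarith
  · intro x hx ux ux1 vx
    have p1 := pos3_mk w B l (s + 1) x (n - x) (by omega) a1 ux vx
    have p2 := pos3_mk w B l s (x + 1) (n - x) (by omega) a0 ux1 vx
    exact hD (l + 1) x p1.2.1 p2.2.1
  · intro x hx ux vx vx1
    have p1 := pos3_mk w B l (s + 1) x (n - x) (by omega) a1 ux vx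
    have p2 := pos3_mk w B l s x (n + 1 - x) (by omega) a0 ux vx1
    have e : n + 1 - x = n - x + 1 := by omega
    rw [e] at p2 ⊢
    exact hD (l + 2) (n - x) p1.2.2 p2.2.2

end TS

open TS in
/-- Three-site eigenvector lemma: a mean-zero eigenvector with eigenvalue larger than one of the
sum of the off-diagonal conditional expectations vanishes on the support. -/
theorem three_site_eigen (w : Fin 3 → ℕ → ℝ) (hw0 : ∀ l t, 0 ≤ w l t)
    (hw : ∀ l s t, s ≤ t → w l s * w l (t + 1) ≤ w l (s + 1) * w l t)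
    (B : ℕ) (γ : Fin 3 → ℕ → ℝ) (lam : ℝ) (hlam : 1 < lam)
    (hmean : ∀ l, ∑ b ∈ simplex B, (∏ i, w i (b i)) * γ l (b l) = 0)
    (hev : ∀ l s, lam * (∑ b ∈ (simplex B).filter (fun b => b l = s), ∏ i, w i (b i)) * γ l s
        = ∑ b ∈ (simplex B).filter (fun b => b l = s),
            (∏ i, w i (b i)) * ∑ j ∈ (univ : Finset (Fin 3)).erase l, γ j (b j)) :
    ∀ b ∈ simplex B, 0 < ∏ i, w i (b i) → ∀ l, γ l (b l) = 0 := by
  classical
  intro b0 hb0 hW0
  let f : Fin 3 × ℕ → ℝ := fun p =>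
    if pos3 w B p.1 p.2 ∧ pos3 w B p.1 (p.2 + 1) then |γ p.1 (p.2 + 1) - γ p.1 p.2| else 0
  obtain ⟨p0, _, hmax⟩ := exists_max_image ((univ : Finset (Fin 3)) ×ˢ range (B + 1)) f
    ⟨((0 : Fin 3), 0), by simp⟩
  have hD : ∀ l s, pos3 w B l s → pos3 w B l (s + 1) → |γ l (s + 1) - γ l s| ≤ f p0 := by
    intro l s h0 h1
    obtain ⟨x, y, e, _⟩ := pos3_elim w hw0 B l s h0
    have hmem : (l, s) ∈ (univ : Finset (Fin 3)) ×ˢ range (B + 1) := by
      rw [mem_product, mem_range]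
      exact ⟨mem_univ _, by omega⟩
    have h2 := hmax (l, s) hmem
    have e2 : f (l, s) = |γ l (s + 1) - γ l s| := if_pos ⟨h0, h1⟩
    rw [e2] at h2
    exact h2
  have hcore := core w hw0 hw B γ lam (by linarith) hev (f p0) hD
  have hf0 : f p0 = 0 := by
    by_contra hne
    have hcond : pos3 w B p0.1 p0.2 ∧ pos3 w B p0.1 (p0.2 + 1) := by
      by_contra hc
      exact hne (if_neg hc)
    have hval : f p0 = |γ p0.1 (p0.2 + 1) - γ p0.1 p0.2| := if_pos hcond
    have h1 := hcore p0.1 p0.2 hcond.1 hcond.2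
    rw [← hval] at h1
    have hpos : 0 < f p0 :=
      lt_of_le_of_ne (by rw [hval]; exact abs_nonneg _) (Ne.symm hne)
    nlinarith
  have hstep : ∀ l s, pos3 w B l s → pos3 w B l (s + 1) → γ l (s + 1) = γ l s := by
    intro l s h0 h1
    have h2 := hD l s h0 h1
    rw [hf0] at h2
    have h3 := abs_nonpos_iff.mp h2
    linarith
  intro l
  have hp : pos3 w B l (b0 l) := ⟨b0, hb0, rfl, hW0⟩
  have hm := hmean l
  have hsum : ∑ b ∈ simplex B, (∏ i, w i (b i)) * γ l (b l)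
      = (∑ b ∈ simplex B, ∏ i, w i (b i)) * γ l (b0 l) := by
    rw [sum_mul]
    apply sum_congr rfl
    intro b hb
    have hWb : 0 ≤ ∏ i, w i (b i) := prod_nonneg (fun i _ => hw0 i (b i))
    rcases hWb.eq_or_lt with h0 | hpos
    · rw [← h0, zero_mul, zero_mul]
    · rw [const_on_supp w hw0 hw B γ hstep l (b l) (b0 l) ⟨b, hb, rfl, hpos⟩ hp]
  rw [hsum] at hm
  have htot : 0 < ∑ b ∈ simplex B, ∏ i, w i (b i) :=
    sum_pos' (fun b _ => prod_nonneg (fun i _ => hw0 i (b i))) ⟨b0, hb0, hW0⟩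
  rcases mul_eq_zero.mp hm with h | h
  · exact absurd h (ne_of_gt htot)
  · exact h

end Vale.Agent.Lib.P335.Bip
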